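import Vale.Agent.P127.U.Mic.Props
import Vale.Agent.P127.Stk.LibDom

/-!
# P127 / U / H172 : the ends of the chain (helper172)

Proof of `PEnds` of `U/Mic/Props.lean`.
-/

set_option autoImplicit false

namespace Vale.Agent.P127.U.H172

open Finset Vale.Agent.P127 Vale.Agent.P127.Stk Vale.Agent.P127.U.CellD Vale.Agent.P127.U.Mic

/-! ### exceptional events, both counts relative to `Y` -/

section exc

variable {Ω : Type} [Fintype Ω] {S T : Type*}

/-- outside of the event `E` the variable `X` is a function of `Y`, and in general it has at most `N`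
values given `Y` -/
theorem hc_exc (P : Law Ω) (E : Ω → Prop) (X : Ω → S) (Y : Ω → T) (N : ℕ)
    (h1 : ∀ ω, 0 < P.w ω → ∃ F : Finset S, F.card ≤ N ∧
      ∀ ω', 0 < P.w ω' → Y ω' = Y ω → X ω' ∈ F)
    (h2 : ∀ ω, 0 < P.w ω → ¬ E ω → ∀ ω', 0 < P.w ω' → ¬ E ω' → Y ω' = Y ω → X ω' = X ω) :
    hc P X Y ≤ Real.log 2 + prE P E * Real.log N := by
  classical
  have hl2 : 0 ≤ Real.log 2 := Real.log_nonneg (by norm_num)
  have hlN : 0 ≤ Real.log N := Real.log_natCast_nonneg N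
  have hp0 := prE_nonneg P E
  have hp1 := prE_le_one P E
  rcases hp0.eq_or_lt with h0 | h0
  · have hno : ∀ ω, 0 < P.w ω → ¬ E ω := by
      intro ω hω hE
      have : P.w ω ≤ prE P E := by
        unfold prE
        exact Finset.single_le_sum (f := P.w) (fun ω _ => P.nn ω) (by simpa using hE)
      linarith
    have := hc_zero P (X := X) (Y := Y) fun ω ω' hω hω' e =>
      (h2 ω' hω' (hno ω' hω') ω hω (hno ω hω) e)
    rw [this, ← h0]
    linarith
  · rcases hp1.eq_or_lt with h3 | h3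
    · have := hc_le_log P X Y N h1
      rw [h3]
      linarith
    · have hn : 0 < prE P (fun ω => ¬ E ω) := by
        rw [prE_not]
        linarith
      have e1 := hc_le_on P E h0 h3 X Y
      have e2 : hc (Stk.on P E) X Y ≤ Real.log N :=
        hc_le_log _ X Y N fun ω hω => by
          obtain ⟨F, hF, hF'⟩ := h1 ω (on_pos h0 hω).2
          exact ⟨F, hF, fun ω' hω' e => hF' ω' (on_pos h0 hω').2 e⟩
      have e3 : hc (Stk.on P fun ω => ¬ E ω) X Y = 0 := by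
        refine hc_zero _ fun ω ω' hω hω' e => ?_
        obtain ⟨hE, hω⟩ := on_pos hn hω
        obtain ⟨hE', hω'⟩ := on_pos hn hω'
        exact h2 ω' hω' hE' ω hω hE e
      have e4 : prE P E * hc (Stk.on P E) X Y ≤ prE P E * Real.log N :=
        mul_le_mul_of_nonneg_left e2 h0.le
      rw [e3] at e1
      linarith

end exc

/-! ### roundings -/

section rds

lemma fl1_abs {s : ℕ} {x y : ℝ} (h : fl1 s x = fl1 s y) : |x - y| * 2 ^ s ≤ 1 := by
  unfold fl1 at h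
  have h1 := Int.abs_sub_lt_one_of_floor_eq_floor h
  rw [← mul_sub, abs_mul, abs_of_pos (by positivity : (0 : ℝ) < 2 ^ s), mul_comm] at h1
  exact h1.le

lemma fl1_near' {s : ℕ} {x y : ℝ} {N : ℕ} (h : |x - y| * 2 ^ s ≤ N) :
    |fl1 s x - fl1 s y| ≤ (N : ℤ) + 1 := by
  unfold fl1
  refine floor_close_aux ?_
  rw [← mul_sub, abs_mul, abs_of_pos (by positivity : (0 : ℝ) < 2 ^ s), mul_comm]
  exact h

lemma le_of_level {s s' : ℕ} (h : s ≤ s') {x c : ℝ} (hx : 0 ≤ x) (h1 : x * 2 ^ s' ≤ c) :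
    x * 2 ^ s ≤ c :=
  (mul_le_mul_of_nonneg_left (pow_le_pow_right₀ one_le_two h) hx).trans h1

lemma rd_abs {k K : ℕ} (h : k ≤ K) (x : ℝ) : |rd K x - rd k x| * 2 ^ k ≤ 1 := by
  have h1 := rd_sub h x
  have h2 := q2_mul_pow k
  have hp : (0 : ℝ) < 2 ^ k := by positivity
  nlinarith

end rds

/-! ### the cells seen from `(box h q, y1 to b)` -/

section geo

variable {Ω : Type} {C : Pth Ω}

/-- coarser roundings agree -/
lemma rd_congr {k : ℕ} {x y : ℝ} (h : fl1 k x = fl1 k y) : rd k x = rd k y := by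
  unfold rd
  rw [h]

/-- the three differences -/
lemma close3 {n h q b j : ℕ} (hj : j ≤ n) (h1 : C.a n + b ≤ h)
    (h2 : C.r n + b ≤ q) {ω ω' : Ω} (hW : Mic.box C h q ω' = Mic.box C h q ω)
    (hY : fl1 b (C.y1 ω') = fl1 b (C.y1 ω)) :
    C.T j ω' = C.T j ω ∧ |C.yN j ω' - C.yN j ω| * 2 ^ (b + C.r j) ≤ 2 ∧
      |C.X1 j ω' - C.X1 j ω| * 2 ^ (C.a j + b) ≤ 2 ∧
      |C.F j ω' - C.F j ω| * 2 ^ (C.a j + C.r j + b) ≤ 4 := by
  have ha := C.ha hj
  have hr := C.hr hj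
  have hah : C.a j ≤ h := by omega
  have hrq : C.r j ≤ q := by omega
  unfold Mic.box at hW
  simp only [Prod.mk.injEq] at hW
  obtain ⟨w1, w2, -, w4, w5, w6⟩ := hW
  have t1 : rd h (C.t ω') = rd h (C.t ω) := rd_congr w1
  have t2 : rd q (C.v ω') = rd q (C.v ω) := rd_congr w2
  have f1 : fl1 (C.a j) (C.t ω') = fl1 (C.a j) (C.t ω) := fl1_fl1 hah w1
  have f2 : fl1 (C.r j) (C.v ω') = fl1 (C.r j) (C.v ω) := fl1_fl1 hrq w2
  have s1 : rd (C.a j) (C.t ω') = rd (C.a j) (C.t ω) := rd_congr f1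
  have s2 : rd (C.r j) (C.v ω') = rd (C.r j) (C.v ω) := rd_congr f2
  have hT : C.T j ω' = C.T j ω := by
    unfold Pth.T
    rw [f1, f2]
  have k4 := fl1_abs w4
  have k5 := fl1_abs w5
  have k6 := fl1_abs w6
  have kY := fl1_abs hY
  rw [t2] at k4
  rw [t1] at k5
  rw [t1, t2] at k6
  have kt := rd_abs hah (C.t ω)
  have kv := rd_abs hrq (C.v ω)
  unfold Pth.F Pth.X1 Pth.yN Pth.ta Pth.vr
  rw [s1, s2]
  generalize rd h (C.t ω) = th at *
  generalize rd q (C.v ω) = vq at *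
  generalize rd (C.a j) (C.t ω) = ta at *
  generalize rd (C.r j) (C.v ω) = vr at *
  generalize C.x1 ω = x1 at *
  generalize C.x2 ω = x2 at *
  generalize C.y1 ω = y1 at *
  generalize C.y2 ω = y2 at *
  generalize C.x1 ω' = x1' at *
  generalize C.x2 ω' = x2' at *
  generalize C.y1 ω' = y1' at *
  generalize C.y2 ω' = y2' at *
  have hp : ∀ k : ℕ, (0 : ℝ) < 2 ^ k := fun k => by positivity
  -- the elementary products
  have m1 : |vq - vr| * |y1' - y1| * 2 ^ (b + C.r j) ≤ 1 := by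
    have := mul_le_mul kv kY (by positivity) (by norm_num)
    rw [pow_add]
    nlinarith
  have m2 : |th - ta| * |y1' - y1| * 2 ^ (C.a j + b) ≤ 1 := by
    have := mul_le_mul kt kY (by positivity) (by norm_num)
    rw [pow_add]
    nlinarith
  have n4 : |y2' - vq * y1' - (y2 - vq * y1)| * 2 ^ (b + C.r j) ≤ 1 :=
    le_of_level (by omega) (abs_nonneg _) k4
  have n5 : |x1' + th * y1' - (x1 + th * y1)| * 2 ^ (C.a j + b) ≤ 1 :=
    le_of_level (by omega) (abs_nonneg _) k5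
  refine ⟨hT, ?_, ?_, ?_⟩
  · have e : y2' - vr * y1' - (y2 - vr * y1) =
        (y2' - vq * y1' - (y2 - vq * y1)) + (vq - vr) * (y1' - y1) := by ring
    have h3 := abs_add_le (y2' - vq * y1' - (y2 - vq * y1)) ((vq - vr) * (y1' - y1))
    rw [abs_mul] at h3
    rw [e]
    nlinarith [hp (b + C.r j)]
  · have e : x1' + ta * y1' - (x1 + ta * y1) =
        (x1' + th * y1' - (x1 + th * y1)) - (th - ta) * (y1' - y1) := by ring
    have h3 := abs_sub (x1' + th * y1' - (x1 + th * y1)) ((th - ta) * (y1' - y1))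
    rw [abs_mul] at h3
    rw [e]
    nlinarith [hp (C.a j + b)]
  · have n6 : |x2' + th * y2' - vq * (x1' + th * y1') - (x2 + th * y2 - vq * (x1 + th * y1))| *
        2 ^ (C.a j + C.r j + b) ≤ 1 := le_of_level (by omega) (abs_nonneg _) k6
    have p1 : |th - ta| * |y2' - vq * y1' - (y2 - vq * y1)| *
        2 ^ (C.a j + C.r j + b) ≤ 1 := by
      have := mul_le_mul kt n4 (by positivity) (by norm_num)
      rw [show C.a j + C.r j + b = C.a j + (b + C.r j) by ring, pow_add]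
      nlinarith
    have p2 : |vq - vr| * |x1' + th * y1' - (x1 + th * y1)| *
        2 ^ (C.a j + C.r j + b) ≤ 1 := by
      have := mul_le_mul kv n5 (by positivity) (by norm_num)
      rw [show C.a j + C.r j + b = C.r j + (C.a j + b) by ring, pow_add]
      nlinarith
    have p3 : |th - ta| * (|vq - vr| * |y1' - y1|) *
        2 ^ (C.a j + C.r j + b) ≤ 1 := by
      have := mul_le_mul kt m1 (by positivity) (by norm_num)
      rw [show C.a j + C.r j + b = C.a j + (b + C.r j) by ring, pow_add]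
      nlinarith
    have e : x2' + ta * y2' - vr * (x1' + ta * y1') - (x2 + ta * y2 - vr * (x1 + ta * y1)) =
        (x2' + th * y2' - vq * (x1' + th * y1') - (x2 + th * y2 - vq * (x1 + th * y1))) -
          (th - ta) * (y2' - vq * y1' - (y2 - vq * y1)) +
          (vq - vr) * (x1' + th * y1' - (x1 + th * y1)) -
          (th - ta) * ((vq - vr) * (y1' - y1)) := by ring
    rw [e]
    have q1 := abs_sub (x2' + th * y2' - vq * (x1' + th * y1') -
      (x2 + th * y2 - vq * (x1 + th * y1)) - (th - ta) * (y2' - vq * y1' - (y2 - vq * y1)) +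
      (vq - vr) * (x1' + th * y1' - (x1 + th * y1))) ((th - ta) * ((vq - vr) * (y1' - y1)))
    have q2 := abs_add_le (x2' + th * y2' - vq * (x1' + th * y1') -
      (x2 + th * y2 - vq * (x1 + th * y1)) - (th - ta) * (y2' - vq * y1' - (y2 - vq * y1)))
      ((vq - vr) * (x1' + th * y1' - (x1 + th * y1)))
    have q3 := abs_sub (x2' + th * y2' - vq * (x1' + th * y1') -
      (x2 + th * y2 - vq * (x1 + th * y1))) ((th - ta) * (y2' - vq * y1' - (y2 - vq * y1)))
    rw [abs_mul, abs_mul] at q1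
    rw [abs_mul] at q2 q3
    have hpp := hp (C.a j + C.r j + b)
    nlinarith

/-- given `(box h q, y1 to b)` there are at most `539 ^ (n + 1)` cells `J n b` -/
lemma J_count {n h q b : ℕ} (h1 : C.a n + b ≤ h) (h2 : C.r n + b ≤ q)
    (ω : Ω) : ∃ F : Finset (ℕ → Option Dg),
      F.card ≤ 539 ^ (n + 1) ∧ ∀ ω', Mic.box C h q ω' = Mic.box C h q ω →
        fl1 b (C.y1 ω') = fl1 b (C.y1 ω) → C.J n b ω' ∈ F := by
  classical
  refine ⟨(Fintype.piFinset fun i : Fin (n + 1) =>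
    ({C.T i ω} : Finset (ℤ × ℤ)) ×ˢ ({fl1 b (C.y1 ω)} : Finset ℤ) ×ˢ
      (Finset.Icc (fl1 (b + C.r i - C.κ) (C.yN i ω) - 3)
        (fl1 (b + C.r i - C.κ) (C.yN i ω) + 3)) ×ˢ
      (Finset.Icc (fl1 (C.a i + b - C.κ) (C.X1 i ω) - 3)
        (fl1 (C.a i + b - C.κ) (C.X1 i ω) + 3)) ×ˢ
      (Finset.Icc (fl1 (C.a i + C.r i + b - 2 * C.κ) (C.F i ω) - 5)
        (fl1 (C.a i + C.r i + b - 2 * C.κ) (C.F i ω) + 5))).image
    (fun g i' => if hi : i' ≤ n then some (g ⟨i', Nat.lt_succ_of_le hi⟩) else none), ?_, ?_⟩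
  · refine Finset.card_image_le.trans ?_
    rw [Fintype.card_piFinset]
    refine (Finset.prod_le_prod' (g := fun _ => 539) fun i _ => ?_).trans ?_
    · simp only [Finset.card_product, Finset.card_singleton, Int.card_Icc]
      ring_nf
      simp
    · simp
  · intro ω' hW hY
    rw [Finset.mem_image]
    refine ⟨fun i => C.base i b ω', ?_, ?_⟩
    · rw [Fintype.mem_piFinset]
      intro i
      obtain ⟨c1, c2, c3, c4⟩ := close3 (Nat.lt_succ_iff.1 i.2) h1 h2 hW hY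
      have d2 := fl1_near' (N := 2) (le_of_level
        (Nat.sub_le (b + C.r i) C.κ) (abs_nonneg _) c2 |>.trans (by norm_num))
      have d3 := fl1_near' (N := 2) (le_of_level
        (Nat.sub_le (C.a i + b) C.κ) (abs_nonneg _) c3 |>.trans (by norm_num))
      have d4 := fl1_near' (N := 4) (le_of_level
        (Nat.sub_le (C.a i + C.r i + b) (2 * C.κ)) (abs_nonneg _) c4 |>.trans (by norm_num))
      rw [abs_le] at d2 d3 d4
      unfold Pth.base
      rw [c1, hY]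
      simp only [Finset.mem_product, Finset.mem_singleton, true_and, Finset.mem_Icc]
      push_cast at d2 d3 d4
      refine ⟨⟨?_, ?_⟩, ⟨?_, ?_⟩, ⟨?_, ?_⟩⟩ <;> omega
    · funext i'
      unfold Pth.J
      split_ifs <;> rfl

/-- the first cell knows the box at the start of the path -/
lemma box_of_J {b : ℕ} (hb : 2 * C.κ ≤ b) {ω ω' : Ω}
    (h : C.J 0 b ω = C.J 0 b ω') : Mic.box C (C.a 0) (C.r 0) ω = Mic.box C (C.a 0) (C.r 0) ω' := by
  have hB := Pth.J_iff.1 h 0 le_rfl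
  have hT := Pth.base_T hB
  unfold Pth.base Pth.F Pth.yN Pth.X1 Pth.ta Pth.vr at hB
  simp only [Prod.mk.injEq] at hB
  obtain ⟨-, h1, h2, h3, h4⟩ := hB
  unfold Pth.T at hT
  simp only [Prod.mk.injEq] at hT
  obtain ⟨t1, t2⟩ := hT
  unfold Mic.box
  refine Prod.ext t1 (Prod.ext t2 (Prod.ext ?_ (Prod.ext ?_ (Prod.ext ?_ ?_))))
  · exact fl1_fl1 (Nat.zero_le _) h1
  · exact fl1_fl1 (by omega) h2
  · exact fl1_fl1 (by omega) h3
  · exact fl1_fl1 (by omega) h4

/-- the box of the translated line given the box of the line: at most `125` values -/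
lemma box_trn [Fintype Ω] (P : Law Ω) (C : Pth Ω) (o1 o2 o3 : ℝ) (s q : ℕ) :
    hc P (Mic.box (trn C o1 o2 o3) s q) (Mic.box C s q) ≤ Real.log 125 := by
  classical
  have := hc_le_log P (Mic.box (trn C o1 o2 o3) s q) (Mic.box C s q) 125 ?_
  · exact_mod_cast this
  intro ω _
  refine ⟨({fl1 s (C.t ω)} : Finset ℤ) ×ˢ ({fl1 q (C.v ω)} : Finset ℤ) ×ˢ
    ({fl1 0 (C.y1 ω)} : Finset ℤ) ×ˢ
    (Finset.Icc ((Mic.box (trn C o1 o2 o3) s q ω).2.2.2.1 - 2)
      ((Mic.box (trn C o1 o2 o3) s q ω).2.2.2.1 + 2)) ×ˢ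
    (Finset.Icc ((Mic.box (trn C o1 o2 o3) s q ω).2.2.2.2.1 - 2)
      ((Mic.box (trn C o1 o2 o3) s q ω).2.2.2.2.1 + 2)) ×ˢ
    (Finset.Icc ((Mic.box (trn C o1 o2 o3) s q ω).2.2.2.2.2 - 2)
      ((Mic.box (trn C o1 o2 o3) s q ω).2.2.2.2.2 + 2)), ?_, ?_⟩
  · simp only [Finset.card_product, Finset.card_singleton, Int.card_Icc]
    ring_nf
    simp
  · intro ω' _ hW
    unfold Mic.box at hW
    simp only [Prod.mk.injEq] at hW
    obtain ⟨w1, w2, w3, w4, w5, w6⟩ := hW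
    have t1 : rd s (C.t ω') = rd s (C.t ω) := rd_congr w1
    have t2 : rd q (C.v ω') = rd q (C.v ω) := rd_congr w2
    have k4 := fl1_abs w4
    have k5 := fl1_abs w5
    have k6 := fl1_abs w6
    rw [t1] at k5
    rw [t2] at k4
    rw [t1, t2] at k6
    have d4 : |fl1 q (C.y2 ω' + o3 - rd q (C.v ω) * C.y1 ω') -
        fl1 q (C.y2 ω + o3 - rd q (C.v ω) * C.y1 ω)| ≤ ((1 : ℕ) : ℤ) + 1 := by
      refine fl1_near' ?_
      rw [show C.y2 ω' + o3 - rd q (C.v ω) * C.y1 ω' - (C.y2 ω + o3 - rd q (C.v ω) * C.y1 ω) =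
        C.y2 ω' - rd q (C.v ω) * C.y1 ω' - (C.y2 ω - rd q (C.v ω) * C.y1 ω) by ring]
      simpa using k4
    have d5 : |fl1 s (C.x1 ω' + o1 + rd s (C.t ω) * C.y1 ω') -
        fl1 s (C.x1 ω + o1 + rd s (C.t ω) * C.y1 ω)| ≤ ((1 : ℕ) : ℤ) + 1 := by
      refine fl1_near' ?_
      rw [show C.x1 ω' + o1 + rd s (C.t ω) * C.y1 ω' - (C.x1 ω + o1 + rd s (C.t ω) * C.y1 ω) =
        C.x1 ω' + rd s (C.t ω) * C.y1 ω' - (C.x1 ω + rd s (C.t ω) * C.y1 ω) by ring]
      simpa using k5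
    have d6 : |fl1 (s + q) (C.x2 ω' + o2 + rd s (C.t ω) * (C.y2 ω' + o3) - rd q (C.v ω) *
          (C.x1 ω' + o1 + rd s (C.t ω) * C.y1 ω')) -
        fl1 (s + q) (C.x2 ω + o2 + rd s (C.t ω) * (C.y2 ω + o3) - rd q (C.v ω) *
          (C.x1 ω + o1 + rd s (C.t ω) * C.y1 ω))| ≤ ((1 : ℕ) : ℤ) + 1 := by
      refine fl1_near' ?_
      rw [show C.x2 ω' + o2 + rd s (C.t ω) * (C.y2 ω' + o3) - rd q (C.v ω) *
          (C.x1 ω' + o1 + rd s (C.t ω) * C.y1 ω') - (C.x2 ω + o2 +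
          rd s (C.t ω) * (C.y2 ω + o3) - rd q (C.v ω) *
          (C.x1 ω + o1 + rd s (C.t ω) * C.y1 ω)) =
        C.x2 ω' + rd s (C.t ω) * C.y2 ω' - rd q (C.v ω) *
          (C.x1 ω' + rd s (C.t ω) * C.y1 ω') - (C.x2 ω + rd s (C.t ω) * C.y2 ω -
          rd q (C.v ω) * (C.x1 ω + rd s (C.t ω) * C.y1 ω)) by ring]
      simpa using k6
    rw [abs_le] at d4 d5 d6
    unfold Mic.box trn
    simp only [Finset.mem_product, Finset.mem_singleton, Finset.mem_Icc]
    rw [t1, t2]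
    push_cast at d4 d5 d6
    refine ⟨w1, w2, w3, ⟨?_, ?_⟩, ⟨?_, ?_⟩, ⟨?_, ?_⟩⟩ <;> omega

lemma trn_trn (C : Pth Ω) (o1 o2 o3 : ℝ) : trn (trn C o1 o2 o3) (-o1) (-o2) (-o3) = C := by
  unfold trn
  simp

lemma box_trn' [Fintype Ω] (P : Law Ω) (C : Pth Ω) (o1 o2 o3 : ℝ) (s q : ℕ) :
    hc P (Mic.box C s q) (Mic.box (trn C o1 o2 o3) s q) ≤ Real.log 125 := by
  have := box_trn P (trn C o1 o2 o3) (-o1) (-o2) (-o3) s q
  rwa [trn_trn] at this

end geo

/-! ### the ends of the chain -/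

theorem pEnds : PEnds := by
  classical
  refine ⟨Real.log 2 + Real.log 539 + 2 * Real.log 125, ?_⟩
  intro Ω _ P C n h q b o1 o2 o3 _ _ _ _ _ _ h1 h2 hb hamb
  set D := trn C o1 o2 o3 with hD
  have hl539 : 0 ≤ Real.log 539 := Real.log_nonneg (by norm_num)
  have h1' : D.a n + b ≤ h := h1
  have h2' : D.r n + b ≤ q := h2
  set V : Ω → (ℤ × ℤ × ℤ × ℤ × ℤ × ℤ) × ℤ := fun ω => (Mic.box C h q ω, fl1 b (C.y1 ω)) with hV
  set V' : Ω → (ℤ × ℤ × ℤ × ℤ × ℤ × ℤ) × ℤ := fun ω => (Mic.box D h q ω, fl1 b (C.y1 ω)) with hV'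
  -- the start
  have a1 : hc P C.ln (D.J 0 b) ≤ hc P C.ln (Mic.box D (C.a 0) (C.r 0)) :=
    hc_mono_right P _ fun ω ω' _ _ e => box_of_J (C := D) hb e
  have a2 : hc P C.ln (Mic.box D (C.a 0) (C.r 0)) ≤ hc P C.ln (Mic.box C (C.a 0) (C.r 0)) + Real.log 125 := by
    have e1 := hc_le_add' P C.ln (Mic.box C (C.a 0) (C.r 0)) (Mic.box D (C.a 0) (C.r 0))
    have e2 : hc P C.ln (fun ω => (Mic.box C (C.a 0) (C.r 0) ω, Mic.box D (C.a 0) (C.r 0) ω)) ≤
        hc P C.ln (Mic.box C (C.a 0) (C.r 0)) :=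
      hc_mono_right P _ fun ω ω' _ _ e => congrArg Prod.fst e
    have e3 := box_trn' P C o1 o2 o3 (C.a 0) (C.r 0)
    linarith
  -- the end
  have b1 : hc P C.ln V ≤ hc P C.ln (fun ω => (D.J n b ω, D.J 0 b ω)) +
      hc P (fun ω => (D.J n b ω, D.J 0 b ω)) V := by
    have e1 := hc_le_add' P C.ln (fun ω => (D.J n b ω, D.J 0 b ω)) V
    have e2 : hc P C.ln (fun ω => ((D.J n b ω, D.J 0 b ω), V ω)) ≤
        hc P C.ln (fun ω => (D.J n b ω, D.J 0 b ω)) :=
      hc_mono_right P _ fun ω ω' _ _ e => congrArg Prod.fst e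
    linarith
  have b2 : hc P (fun ω => (D.J n b ω, D.J 0 b ω)) V ≤ hc P (D.J n b) V :=
    hc_mono_left P fun ω ω' _ _ e => by
      simp only [Prod.mk.injEq] at e
      exact Prod.ext e.1 (Pth.J_mono (Nat.zero_le _) le_rfl e.1)
  have b3 : hc P (D.J n b) V ≤ hc P (D.J n b) V' + Real.log 125 := by
    have e1 := hc_le_add' P (D.J n b) (Mic.box D h q) V
    have e2 : hc P (D.J n b) (fun ω => (Mic.box D h q ω, V ω)) ≤ hc P (D.J n b) V' :=
      hc_mono_right P _ fun ω ω' _ _ e => by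
        simp only [hV, Prod.mk.injEq] at e
        exact Prod.ext e.1 e.2.2
    have e3 : hc P (Mic.box D h q) V ≤ hc P (Mic.box D h q) (Mic.box C h q) :=
      hc_mono_right P _ fun ω ω' _ _ e => congrArg Prod.fst e
    have e4 := box_trn P C o1 o2 o3 h q
    linarith
  have b4 : hc P (D.J n b) V' ≤ Real.log 2 + amb P D h q b n * Real.log ((539 ^ (n + 1) : ℕ) : ℝ) := by
    have e1 := hc_exc P (fun ω => ∃ ω', 0 < P.w ω' ∧ Mic.box D h q ω' = Mic.box D h q ω ∧
      fl1 b (D.y1 ω') = fl1 b (D.y1 ω) ∧ D.J n b ω' ≠ D.J n b ω) (D.J n b) V' (539 ^ (n + 1))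
      (fun ω _ => by
        obtain ⟨F, hF, hF'⟩ := J_count (C := D) h1' h2' ω
        refine ⟨F, hF, fun ω' _ e => ?_⟩
        simp only [hV', Prod.mk.injEq] at e
        exact hF' ω' e.1 e.2)
      (fun ω hω hE ω' hω' _ e => by
        by_contra hne
        simp only [hV', Prod.mk.injEq] at e
        exact hE ⟨ω', hω', e.1, e.2, hne⟩)
    have e2 : amb P D h q b n = prE P (fun ω => ∃ ω', 0 < P.w ω' ∧
        Mic.box D h q ω' = Mic.box D h q ω ∧
        fl1 b (D.y1 ω') = fl1 b (D.y1 ω) ∧ D.J n b ω' ≠ D.J n b ω) := by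
      unfold amb Law.ex prE
      rw [Finset.sum_filter]
      refine Finset.sum_congr rfl fun ω _ => ?_
      simp only [mul_ite, mul_one, mul_zero]
      split_ifs <;> rfl
    rw [e2]
    exact e1
  have b5 : amb P D h q b n * Real.log ((539 ^ (n + 1) : ℕ) : ℝ) ≤ Real.log 539 := by
    push_cast
    rw [Real.log_pow]
    have e0 : 0 ≤ amb P D h q b n := by
      unfold amb Law.ex
      refine Finset.sum_nonneg fun ω _ => mul_nonneg (P.nn ω) ?_
      dsimp only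
      split_ifs <;> norm_num
    have e1 : amb P D h q b n * ((n : ℝ) + 1) ≤ 1 := hamb
    push_cast
    nlinarith
  have c1 : hc P C.ln (Mic.box C h q) ≤ hc P C.ln V + b * Real.log 2 := by
    have e1 := hc_le_add' P C.ln (fun ω => fl1 b (C.y1 ω)) (Mic.box C h q)
    have e2 : hc P C.ln (fun ω => (fl1 b (C.y1 ω), Mic.box C h q ω)) ≤ hc P C.ln V :=
      hc_mono_right P _ fun ω ω' _ _ e => by
        simp only [Prod.mk.injEq] at e
        exact Prod.ext e.2 e.1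
    have e3 : hc P (fun ω => fl1 b (C.y1 ω)) (Mic.box C h q) ≤ b * Real.log 2 := by
      have e4 := hc_fl1_digits_le P (Nat.zero_le b) C.y1 (fun _ => ())
      rw [Nat.sub_zero] at e4
      refine (hc_mono_right P _ fun ω ω' _ _ e => ?_).trans e4
      have : (Mic.box C h q ω).2.2.1 = (Mic.box C h q ω').2.2.1 := by rw [e]
      exact Prod.ext this rfl
    linarith
  have c2 : hc P C.ln (fun ω => (Mic.box C h q ω, Mic.box C (C.a 0) (C.r 0) ω)) ≤
      hc P C.ln (Mic.box C h q) :=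
    hc_mono_right P _ fun ω ω' _ _ e => congrArg Prod.fst e
  unfold mi
  linarith

end Vale.Agent.P127.U.H172
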